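import Vale.Agent.P134.H202.Slab
import Vale.Agent.P134.LI.SD1
import Vale.Agent.P134.H147.PW
import Vale.Agent.P134.H919.StCDX
import Vale.Agent.P134.H930.StMIS
import Vale.Agent.P134.H491.StUB
import Vale.Agent.P134.H88.T3
import Vale.Agent.P134.H3.T4
import Vale.Agent.P134.R3.Key
import Vale.Agent.P134.H967.Slab2
import Vale.Agent.P134.H967.Key
import Vale.Agent.P134.H967.Good
import Vale.Agent.P134.H967.Alg
import Vale.Agent.P134.PX.FinalASM
import Vale.Agent.P134.H970.Prof
import Vale.Agent.P134.H988.StMet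
import Vale.Agent.P134.ASM.Lev
import Vale.Agent.P134.ASM.Vol

/-! Assembly of S3 (stable solutions in `R^3`). -/

set_option linter.all false

namespace Vale.Agent.P134.H134

open Vale.Agent.P134 Vale.Agent.P134.LI

theorem slab_of_T3 (ha : StT3a) (hb : StT3b) : StSLAB :=
  H202.stSLAB_of_StSD1 (stSD1_of H147.stPW H919.stCDX H930.stMIS H491.T1.stT1 (H88.T3_of ha hb)
    H3.stT4)

theorem s3_of_T3 (ha : StT3a) (hb : StT3b) : StS3 :=
  H967.s3_of_key (R3K.key (H967.slab2 (slab_of_T3 ha hb)) PX.FIALA_ASM H970.stPROF H988.stMET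
    ASM.LEV (ASM.VOL_of H586.stGw) H967.stHAR H967.stGOOD H967.stALG)

end Vale.Agent.P134.H134
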