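import Vale.Agent.P134.H147.Base

/-! Adding variables: a statement on monotone solutions in dimension `m` implies the statement in
all dimensions `n ≤ m`. -/

set_option linter.all false

namespace Vale.Agent.P134.H134

open scoped InnerProductSpace Laplacian

variable {n m : ℕ}

/-- projection to the first `n` coordinates. -/
noncomputable def pr (h : n ≤ m) : EuclideanSpace ℝ (Fin m) →L[ℝ] EuclideanSpace ℝ (Fin n) :=
  LinearMap.toContinuousLinearMap
    { toFun := fun x => WithLp.toLp 2 (fun i => x (Fin.castLE h i))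
      map_add' := fun x y => by ext i; simp
      map_smul' := fun c x => by ext i; simp }

/-- inclusion as the first `n` coordinates. -/
noncomputable def em (h : n ≤ m) : EuclideanSpace ℝ (Fin n) →L[ℝ] EuclideanSpace ℝ (Fin m) :=
  LinearMap.toContinuousLinearMap
    { toFun := fun y => WithLp.toLp 2 (fun j => if hj : (j : ℕ) < n then y ⟨j, hj⟩ else 0)
      map_add' := fun x y => by
        ext i
        simp only [PiLp.add_apply]
        split_ifs <;> simp
      map_smul' := fun c x => by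
        ext i
        simp only [PiLp.smul_apply, smul_eq_mul, RingHom.id_apply]
        split_ifs <;> simp }

lemma pr_apply (h : n ≤ m) (x : EuclideanSpace ℝ (Fin m)) (i : Fin n) :
    pr h x i = x (Fin.castLE h i) := rfl

lemma em_apply (h : n ≤ m) (y : EuclideanSpace ℝ (Fin n)) (j : Fin m) :
    em h y j = if hj : (j : ℕ) < n then y ⟨j, hj⟩ else 0 := rfl

lemma pr_em (h : n ≤ m) (y : EuclideanSpace ℝ (Fin n)) : pr h (em h y) = y := by
  ext i
  rw [pr_apply, em_apply]
  simp

lemma sum_castLE (h : n ≤ m) {M : Type*} [AddCommMonoid M] (F : Fin m → M)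
    (hF : ∀ j : Fin m, n ≤ (j : ℕ) → F j = 0) : ∑ j, F j = ∑ i, F (Fin.castLE h i) := by
  have e : ∑ i, F (Fin.castLE h i) = ∑ j ∈ Finset.univ.map (Fin.castLEEmb h), F j := by
    rw [Finset.sum_map]; rfl
  rw [e]
  symm
  refine Finset.sum_subset (Finset.subset_univ _) fun j _ hj => hF j ?_
  by_contra hlt
  push Not at hlt
  refine hj ?_
  rw [Finset.mem_map]
  exact ⟨⟨j, hlt⟩, Finset.mem_univ _, by ext; simp⟩

lemma inner_em (h : n ≤ m) (e : EuclideanSpace ℝ (Fin m)) (y : EuclideanSpace ℝ (Fin n)) :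
    ⟪e, em h y⟫_ℝ = ⟪pr h e, y⟫_ℝ := by
  rw [PiLp.inner_apply, PiLp.inner_apply, sum_castLE h _ (fun j hj => by
    rw [em_apply, dif_neg (by omega)]; simp)]
  refine Finset.sum_congr rfl fun i _ => ?_
  rw [em_apply, pr_apply]
  simp

lemma pr_single (h : n ≤ m) (j : Fin m) :
    pr h (EuclideanSpace.basisFun (Fin m) ℝ j)
      = if hj : (j : ℕ) < n then EuclideanSpace.basisFun (Fin n) ℝ ⟨j, hj⟩ else 0 := by
  ext i
  rw [pr_apply]
  split_ifs with hj
  · simp only [EuclideanSpace.basisFun_apply, PiLp.single_apply]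
    congr 1
    rw [eq_iff_iff, Fin.ext_iff, Fin.ext_iff]
    simp
  · simp only [EuclideanSpace.basisFun_apply, PiLp.single_apply, PiLp.zero_apply]
    rw [if_neg]
    intro hc
    have := i.2
    rw [← hc] at hj
    exact hj (by simp)

lemma lap_pr (h : n ≤ m) {u : EuclideanSpace ℝ (Fin n) → ℝ} (hu : ContDiff ℝ 2 u)
    (x : EuclideanSpace ℝ (Fin m)) : Δ (fun x => u (pr h x)) x = Δ u (pr h x) := by
  rw [InnerProductSpace.laplacian_eq_iteratedFDeriv_orthonormalBasis _
    (EuclideanSpace.basisFun (Fin m) ℝ),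
    InnerProductSpace.laplacian_eq_iteratedFDeriv_orthonormalBasis _
    (EuclideanSpace.basisFun (Fin n) ℝ)]
  have h1 : iteratedFDeriv ℝ 2 (fun x => u (pr h x)) x
      = (iteratedFDeriv ℝ 2 u (pr h x)).compContinuousLinearMap fun _ => pr h := by
    have := ContinuousLinearMap.iteratedFDeriv_comp_right (pr h) hu x (i := 2) le_rfl
    exact this
  simp only
  rw [h1, sum_castLE h]
  · refine Finset.sum_congr rfl fun i _ => ?_
    rw [ContinuousMultilinearMap.compContinuousLinearMap_apply]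
    congr 1
    funext k
    have e : ∀ j : Fin m, j = Fin.castLE h i → pr h (EuclideanSpace.basisFun (Fin m) ℝ j)
        = EuclideanSpace.basisFun (Fin n) ℝ i := by
      intro j hj
      rw [pr_single, dif_pos (by rw [hj]; simp)]
      congr 1
      subst hj
      rfl
    fin_cases k <;> simpa using e _ rfl
  · intro j hj
    rw [ContinuousMultilinearMap.compContinuousLinearMap_apply]
    refine ContinuousMultilinearMap.map_coord_zero _ (0 : Fin 2) ?_
    have e : pr h (EuclideanSpace.basisFun (Fin m) ℝ j) = 0 := by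
      rw [pr_single, dif_neg (by omega)]
    simpa using e

/-- Q1 in dimension `m` implies Q1 in all dimensions `n ≤ m`. -/
theorem lift_down (h : n ≤ m)
    (H : ∀ v : EuclideanSpace ℝ (Fin m) → ℝ, ContDiff ℝ 2 v → (∀ x, Δ v x = v x ^ 3 - v x) →
      (∀ x, |v x| ≤ 1) → ∀ a : EuclideanSpace ℝ (Fin m), (∀ x, 0 < fderiv ℝ v x a) →
      ∃ (e : EuclideanSpace ℝ (Fin m)) (c : ℝ), ‖e‖ = 1 ∧
        ∀ x, v x = Real.tanh ((⟪e, x⟫_ℝ - c) / √2))
    {u : EuclideanSpace ℝ (Fin n) → ℝ} (hu : ContDiff ℝ 2 u)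
    (heq : ∀ x, Δ u x = u x ^ 3 - u x) (hb : ∀ x, |u x| ≤ 1)
    {a : EuclideanSpace ℝ (Fin n)} (ha : ∀ x, 0 < fderiv ℝ u x a) :
    ∃ (e : EuclideanSpace ℝ (Fin n)) (c : ℝ), ‖e‖ = 1 ∧
      ∀ x, u x = Real.tanh ((⟪e, x⟫_ℝ - c) / √2) := by
  have hd : Differentiable ℝ u := hu.differentiable (by norm_num)
  obtain ⟨e, c, he, hec⟩ := H (fun x => u (pr h x)) (hu.comp (pr h).contDiff)
    (fun x => by rw [lap_pr h hu, heq]) (fun x => hb _) (em h a) (fun x => by
      have h1 : HasFDerivAt (fun x => u (pr h x)) ((fderiv ℝ u (pr h x)).comp (pr h)) x :=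
        HasFDerivAt.comp x (hd (pr h x)).hasFDerivAt (pr h).hasFDerivAt
      rw [h1.fderiv, ContinuousLinearMap.comp_apply, pr_em]
      exact ha _)
  refine ⟨pr h e, c, ?_, fun y => ?_⟩
  · -- the components of `e` beyond `n` vanish
    have hz : ∀ j : Fin m, n ≤ (j : ℕ) → e j = 0 := by
      intro j hj
      have h1 := hec (EuclideanSpace.basisFun (Fin m) ℝ j)
      have h2 := hec 0
      have e1 : pr h (EuclideanSpace.basisFun (Fin m) ℝ j) = 0 := by
        rw [pr_single, dif_neg (by omega)]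
      simp only [e1] at h1
      simp only [map_zero] at h2
      rw [h2] at h1
      have h4 : ⟪e, (0 : EuclideanSpace ℝ (Fin m))⟫_ℝ - c
          = ⟪e, EuclideanSpace.basisFun (Fin m) ℝ j⟫_ℝ - c :=
        H147.g0_strictMono.injective h1
      rw [inner_zero_right, real_inner_comm] at h4
      have h5 : ⟪EuclideanSpace.basisFun (Fin m) ℝ j, e⟫_ℝ = e j := by
        rw [EuclideanSpace.basisFun_apply, EuclideanSpace.inner_single_left]; simp
      rw [h5] at h4
      linarith
    have h6 : ‖pr h e‖ ^ 2 = ‖e‖ ^ 2 := by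
      rw [EuclideanSpace.norm_sq_eq, EuclideanSpace.norm_sq_eq, sum_castLE h (fun j => ‖e j‖ ^ 2)
        (fun j hj => by rw [hz j hj]; simp)]
      exact Finset.sum_congr rfl fun i _ => by rw [pr_apply]
    rw [he] at h6
    nlinarith [norm_nonneg (pr h e)]
  · have h7 := hec (em h y)
    simp only [pr_em] at h7
    rw [h7, inner_em]

end Vale.Agent.P134.H134
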