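import Vale.Agent.P134.H134.Fin
import Vale.Agent.P134.H134.Lift
import Vale.Agent.P134.H765.Dim4
import Vale.Agent.P134.H765.Stab
import Vale.Agent.P134.H790.T3bf

/-! Final forms: De Giorgi in dimensions at most four, stable solutions in dimension three. -/

set_option linter.all false

namespace Vale.Agent.P134.H134

open Vale.Agent.P134 Vale.Agent.P134.LI
open scoped InnerProductSpace Laplacian

/-- monotone solutions, `n ≤ 4`, from S3. -/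
theorem mono_of_S3 (hS : StS3) {n : ℕ} (hn : n ≤ 4) {u : EuclideanSpace ℝ (Fin n) → ℝ}
    (hu : ContDiff ℝ 2 u) (heq : ∀ x, Δ u x = u x ^ 3 - u x) (hb : ∃ M : ℝ, ∀ x, |u x| ≤ M)
    {a : EuclideanSpace ℝ (Fin n)} (ha : ∀ x, 0 < fderiv ℝ u x a) :
    ∃ (e : EuclideanSpace ℝ (Fin n)) (c : ℝ), ‖e‖ = 1 ∧ 0 < ⟪e, a⟫_ℝ ∧
      ∀ x, u x = Real.tanh ((⟪e, x⟫_ℝ - c) / √2) := by
  have hb1 := H765.abs_le_one_of_bdd hu heq hb
  obtain ⟨e, c, he, hec⟩ := lift_down hn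
    (fun v hv hveq hvb b hbm => H765.dim4_of_S3 hS hv hveq ⟨1, hvb⟩ hbm) hu heq hb1 ha
  refine ⟨e, c, he, ?_, hec⟩
  have hd : Differentiable ℝ u := hu.differentiable (by norm_num)
  -- `u` is strictly increasing along `a`
  have h1 : StrictMono fun t : ℝ => u (t • a) := by
    refine strictMono_of_deriv_pos fun t => ?_
    have h2 : HasDerivAt (fun t : ℝ => u (t • a)) (fderiv ℝ u (t • a) a) t := by
      have h3 : HasDerivAt (fun t : ℝ => t • a) a t := by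
        simpa using (hasDerivAt_id t).smul_const a
      exact (hd (t • a)).hasFDerivAt.comp_hasDerivAt t h3
    rw [h2.deriv]
    exact ha _
  have h4 : u ((0:ℝ) • a) < u ((1:ℝ) • a) := h1 one_pos
  rw [hec, hec] at h4
  have h5 : ⟪e, (0:ℝ) • a⟫_ℝ - c < ⟪e, (1:ℝ) • a⟫_ℝ - c := H147.g0_strictMono.lt_iff_lt.mp h4
  rw [zero_smul, one_smul, inner_zero_right] at h5
  linarith

/-- stable solutions, `n = 3`, from S3. -/
theorem stab_of_S3 (hS : StS3) {u : EuclideanSpace ℝ (Fin 3) → ℝ} (hu : ContDiff ℝ 2 u)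
    (heq : ∀ x, Δ u x = u x ^ 3 - u x) (hb : ∃ M : ℝ, ∀ x, |u x| ≤ M)
    (hs : ∀ η : EuclideanSpace ℝ (Fin 3) → ℝ, ContDiff ℝ (⊤ : ℕ∞) η → HasCompactSupport η →
      0 ≤ ∫ x, (‖fderiv ℝ η x‖ ^ 2 + (3 * u x ^ 2 - 1) * η x ^ 2)) :
    (∀ x, u x = 1) ∨ (∀ x, u x = -1) ∨ ∃ (e : EuclideanSpace ℝ (Fin 3)) (c : ℝ), ‖e‖ = 1 ∧
      ∀ x, u x = Real.tanh ((⟪e, x⟫_ℝ - c) / √2) :=
  H765.stable_R3 hS hu heq hb hs

end Vale.Agent.P134.H134
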