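import Vale.Agent.P134.H134.Main
import Vale.Agent.P134.LI.T3a

/-! S3, unconditionally. -/

set_option linter.all false

namespace Vale.Agent.P134.H134

open Vale.Agent.P134 Vale.Agent.P134.LI

/-- the localised stability inequality. -/
theorem stSLAB : StSLAB := slab_of_T3 T3a.stT3a H790.stT3b

/-- S3: solutions in `R^3` with `|u| < 1` and `HYP` have zero deficit. -/
theorem stS3 : StS3 := s3_of_T3 T3a.stT3a H790.stT3b

end Vale.Agent.P134.H134
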